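import Mathlib

/-!
Working definitions for the affine Bernstein theorem in dimensions three to nine.
All the work is done on `Fin n → ℝ` (sup norm, product measure).
-/

open MeasureTheory Metric Set Filter Topology Matrix
open scoped ENNReal ContDiff

noncomputable section

namespace Vale.Agent.P252b

abbrev E (n : ℕ) := Fin n → ℝ

variable {n : ℕ}

/-- Coordinate derivative. -/
def pd (f : E n → ℝ) (i : Fin n) (x : E n) : ℝ := fderiv ℝ f x (Pi.single i 1)

/-- Gradient. -/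
def grad (f : E n → ℝ) (x : E n) : E n := fun i => pd f i x

/-- Hessian matrix. -/
def Hs (f : E n → ℝ) (x : E n) : Matrix (Fin n) (Fin n) ℝ :=
  Matrix.of fun i j => pd (pd f j) i x

/-- Derivative of the Hessian in the direction `v`. -/
def Tm (f : E n → ℝ) (v : E n) (x : E n) : Matrix (Fin n) (Fin n) ℝ :=
  Matrix.of fun i j => grad (fun y => Hs f y i j) x ⬝ᵥ v

/-- Divergence. -/
def dv (V : E n → E n) (x : E n) : ℝ := ∑ i, pd (fun y => V y i) i x

/-- Hessian determinant. -/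
def Dt (u : E n → ℝ) (x : E n) : ℝ := (Hs u x).det

/-- Inverse Hessian. -/
def Gm (u : E n → ℝ) (x : E n) : Matrix (Fin n) (Fin n) ℝ := (Hs u x)⁻¹

/-- Affine area density. -/
def ff (u : E n → ℝ) (x : E n) : ℝ := Dt u x ^ (1 / ((n : ℝ) + 2))

/-- The function `w` of the affine maximal equation. -/
def ww (u : E n → ℝ) (x : E n) : ℝ := Dt u x ^ (-(((n : ℝ) + 1) / ((n : ℝ) + 2)))

/-- The bilinear form of the inverse Hessian. -/
def gq (u : E n → ℝ) (x : E n) (v w : E n) : ℝ := v ⬝ᵥ (Gm u x *ᵥ w)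

/-- Non-divergence operator `u^{ij} F_{ij}`. -/
def Lnd (u F : E n → ℝ) (x : E n) : ℝ := (Gm u x * Hs F x).trace

/-- Divergence form operator `∂_i (u^{ij} F_j)`. -/
def Lop (u F : E n → ℝ) (x : E n) : ℝ := dv (fun y => Gm u y *ᵥ grad F y) x

/-- Smooth locally uniformly convex functions whose epigraph is closed. -/
structure Cvx (Ω : Set (E n)) (u : E n → ℝ) : Prop where
  isOpen : IsOpen Ω
  convex : Convex ℝ Ω
  smooth : ContDiffOn ℝ ∞ u Ω
  meas : Measurable u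
  posDef : ∀ x ∈ Ω, (Hs u x).PosDef
  closed : ∀ c : ℝ, IsClosed {x | x ∈ Ω ∧ u x ≤ c}

/-- Solutions of the affine maximal equation. -/
structure Sol (Ω : Set (E n)) (u : E n → ℝ) : Prop extends Cvx Ω u where
  am : ∀ x ∈ Ω, Lnd u (ww u) x = 0

/-- Affine functions on `ℝⁿ × ℝ`. -/
structure Af (n : ℕ) where
  p : E n
  s : ℝ
  c : ℝ

/-- Value of an affine function. -/
def Af.ev (a : Af n) (W : E n × ℝ) : ℝ := a.p ⬝ᵥ W.1 + a.s * W.2 + a.c

/-- Linear part of an affine function. -/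
def Af.lin (a : Af n) (V : E n × ℝ) : ℝ := a.p ⬝ᵥ V.1 + a.s * V.2

/-- Restriction of an affine function to the graph. -/
def Af.on (a : Af n) (u : E n → ℝ) (x : E n) : ℝ := a.ev (x, u x)

/-- The affine function `r a + t b + c`. -/
def Af.comb (r : ℝ) (a : Af n) (t : ℝ) (b : Af n) (c : ℝ) : Af n :=
  ⟨r • a.p + t • b.p, r * a.s + t * b.s, r * a.c + t * b.c + c⟩

/-- Height above the tangent plane at `x`, as an affine function. -/
def tgA (u : E n → ℝ) (x : E n) : Af n := ⟨-grad u x, 1, grad u x ⬝ᵥ x - u x⟩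

/-- Height of `W` above the tangent plane at `x`. -/
def tg (u : E n → ℝ) (x : E n) (W : E n × ℝ) : ℝ := W.2 - u x - grad u x ⬝ᵥ (W.1 - x)

/-- Bregman divergence: height of the graph over `y` above the tangent plane at `x`. -/
def Br (u : E n → ℝ) (x y : E n) : ℝ := tg u x (y, u y)

/-- Epigraph. -/
def epi (Ω : Set (E n)) (u : E n → ℝ) : Set (E n × ℝ) := {W | W.1 ∈ Ω ∧ u W.1 ≤ W.2}

/-- Open epigraph. -/
def epi0 (Ω : Set (E n)) (u : E n → ℝ) : Set (E n × ℝ) := {W | W.1 ∈ Ω ∧ u W.1 < W.2}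

/-- Affine functions that are nonnegative on the epigraph. -/
def NN (Ω : Set (E n)) (u : E n → ℝ) (a : Af n) : Prop := ∀ W ∈ epi Ω u, 0 ≤ a.ev W

/-- Section of the graph below a level. -/
def sec (Ω : Set (E n)) (u : E n → ℝ) (a : Af n) (s : ℝ) : Set (E n) :=
  {x | x ∈ Ω ∧ a.on u x ≤ s}

/-- Cap of the epigraph below a level. -/
def cap (Ω : Set (E n)) (u : E n → ℝ) (a : Af n) (s : ℝ) : Set (E n × ℝ) :=
  {W | W ∈ epi Ω u ∧ a.ev W ≤ s}

/-- Affine functions that cut compact caps. -/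
structure CapF (Ω : Set (E n)) (u : E n → ℝ) (a : Af n) : Prop where
  nn : NN Ω u a
  spos : 0 < a.s
  cpt : ∀ s : ℝ, IsCompact (sec Ω u a s)

/-- Density of the centro-affine volume with respect to the point `X`. -/
def md (u : E n → ℝ) (X : E n × ℝ) (x : E n) : ℝ :=
  Real.sqrt (Dt u x) * tg u x X ^ (-((n : ℝ) / 2))

/-- Centro-affine volume. -/
def mass (u : E n → ℝ) (X : E n × ℝ) (S : Set (E n)) : ℝ≥0∞ :=
  ∫⁻ x in S, ENNReal.ofReal (md u X x)

/-- Affine area. -/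
def area (u : E n → ℝ) (S : Set (E n)) : ℝ≥0∞ := ∫⁻ x in S, ENNReal.ofReal (ff u x)

/-- Trace on the graph of the Macbeath region of `X` with ratio `T`. -/
def Mac (Ω : Set (E n)) (u : E n → ℝ) (X : E n × ℝ) (T : ℝ) : Set (E n) :=
  {x | x ∈ Ω ∧ ∀ a : Af n, NN Ω u a → a.on u x ≤ T * a.ev X}

/-- Polynomial bound with exponent `m` for the mass of Macbeath regions. -/
def Phi (n : ℕ) (m : ℝ) : Prop :=
  ∃ C : ℝ, 0 < C ∧ ∀ (Ω : Set (E n)) (u : E n → ℝ), Sol Ω u → ∀ X ∈ epi0 Ω u, ∀ T : ℝ, 1 ≤ T →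
    mass u X (Mac Ω u X T) ≤ ENNReal.ofReal (C * T ^ m)

/-- The function `τ = log l - log f`. -/
def ta (u : E n → ℝ) (X : E n × ℝ) (x : E n) : ℝ := Real.log (tg u x X) - Real.log (ff u x)

/-- The dual function `α = l_Y / l_X`. -/
def al (u : E n → ℝ) (X Y : E n × ℝ) (x : E n) : ℝ := tg u x Y / tg u x X

/-- Carré du champ of the centro-affine metric. -/
def Gam (u : E n → ℝ) (X : E n × ℝ) (f g : E n → ℝ) (x : E n) : ℝ :=
  tg u x X * gq u x (grad f x) (grad g x)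

/-- The field `m l G ∇g`, whose divergence is `m` times the centro-affine Laplacian of `g`. -/
def fld (u : E n → ℝ) (X : E n × ℝ) (g : E n → ℝ) (x : E n) : E n :=
  (md u X x * tg u x X) • (Gm u x *ᵥ grad g x)

/-- The weight of the main inequality. -/
def wt (u : E n → ℝ) (X Y : E n × ℝ) (a : Af n) (H H' η : ℝ) (x : E n) : ℝ :=
  (max (H - a.on u x) 0) ^ 3 * (a.on u x * (H' + a.on u x * al u X Y x)) ^ η * md u X x

/-- The quadratic expression of the main inequality. Here `AA, AD, ...` are the Gram numbers of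
the three vectors, `r = a / b`, `θ = a α / w`, `e₁ = a₀ / a` and `e₂ = (H' + a) / w`. -/
def Qf (n : ℕ) (y η r θ e₁ e₂ AA AD AP DD DP PP : ℝ) : ℝ :=
  (-(y + 6 / (n + 2) * r) * (η * (1 + θ) * AA + η * AD - 3 * r * AA) + (y - 6 / (n + 2) * r ^ 2) * AA
      - (y + 6 / (n + 2) * r) * ((n + 2) / 2 * AP + n * (e₁ - 1)))
  + (-y * (η * (1 + θ) * AD + η * DD - 3 * r * AD + (1 - θ) * AD - DD)
      + y * ((n + 2) / 2 * DP + n * (1 - e₂)))
  + (-(η * (1 + θ) * AP + η * DP - 3 * r * AP) - n + n / 2 * PP)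

/-- The test field of the main inequality. -/
def mfld (u : E n → ℝ) (X Y : E n × ℝ) (a : Af n) (H H' η y : ℝ) (x : E n) : E n :=
  (-((a.on u x * (H' + a.on u x * al u X Y x)) ^ η *
      (y * (max (H - a.on u x) 0) ^ 3 / a.on u x + 6 / (n + 2) * (max (H - a.on u x) 0) ^ 2))) •
    fld u X (a.on u) x
  + (-(y * (a.on u x * (H' + a.on u x * al u X Y x)) ^ η * (max (H - a.on u x) 0) ^ 3 *
      (a.on u x / (H' + a.on u x * al u X Y x)))) • fld u X (al u X Y) x
  + (-((a.on u x * (H' + a.on u x * al u X Y x)) ^ η * (max (H - a.on u x) 0) ^ 3)) •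
    fld u X (ta u X) x

/-- Standing hypotheses of the main inequality. -/
structure Setup (Ω : Set (E n)) (u : E n → ℝ) (X Y : E n × ℝ) (a : Af n) (H' : ℝ) : Prop where
  sol : Sol Ω u
  memX : X ∈ epi0 Ω u
  half : ∀ x ∈ Ω, tg u x X ≤ 2 * tg u x Y
  capF : CapF Ω u a
  pos : 0 < a.ev X
  low : ∀ x ∈ Ω, a.ev X ≤ (n + 2) * a.on u x
  leY : a.ev Y ≤ H'
  nonneg : 0 ≤ H'

/-- Uniformly balanced sections. -/
def Bal (u : E n → ℝ) (Λ : ℝ) : Prop := ∀ x y : E n, Br u x (x - Λ⁻¹ • (y - x)) ≤ Br u x y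

/-- Affine normalisation at `0` with matrix `M` and height `t`. -/
def nz (u : E n → ℝ) (M : Matrix (Fin n) (Fin n) ℝ) (t : ℝ) (ξ : E n) : ℝ :=
  Br u 0 (M *ᵥ ξ) / t

/-- Normalised entire convex functions with balanced sections. -/
structure Nrm (u : E n → ℝ) (Λ : ℝ) : Prop where
  cvx : Cvx univ u
  one_le : 1 ≤ Λ
  bal : Bal u Λ
  zero : u 0 = 0
  grad_zero : grad u 0 = 0
  inner : ∀ x : E n, ‖x‖ ≤ (n * Λ)⁻¹ → u x ≤ 1
  outer : ∀ x : E n, u x ≤ 1 → ‖x‖ ≤ 1

/-- Positive smooth supersolutions. -/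
structure Sup (u F : E n → ℝ) : Prop where
  smooth : ContDiff ℝ ∞ F
  pos : ∀ x, 0 < F x
  sup : ∀ x, Lop u F x ≤ 0

end Vale.Agent.P252b
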